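import Mathlib

/-!
# Two Butson matrices of the same small order are never unbiased in dimension six

If `H`, `K` are `6 × 6` matrices whose entries are fourth roots of unity, or whose entries are
sixth roots of unity, then no entry of `Hᴴ K` has squared modulus `6`: it would be a Gaussian or an
Eisenstein integer of norm `6`, and `a² + b² = 6`, `a² - a b + b² = 6` have no integer solutions.
So a triple of mutually unbiased bases containing the standard basis never has both other bases
given by Butson matrices `BH(6,q)`, `BH(6,q')` with `q, q'` dividing `4`, or both dividing `6`.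
-/

namespace Vale.Agent.Results.P355.SameRootOrder

open Complex Matrix

/-- The primitive cube root of unity `-1/2 + (√3/2) i`. -/
private noncomputable def om : ℂ := ⟨-1 / 2, Real.sqrt 3 / 2⟩

private lemma s3 : Real.sqrt 3 * Real.sqrt 3 = 3 := Real.mul_self_sqrt (by norm_num)

private lemma om_sq : om * om = -1 - om := by
  apply Complex.ext
  · simp only [om, mul_re, sub_re, neg_re, one_re]
    nlinarith [s3]
  · simp only [om, mul_im, sub_im, neg_im, one_im]
    ring

private lemma om_conj : (starRingEnd ℂ) om = -1 - om := by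
  apply Complex.ext
  · simp only [om, conj_re, sub_re, neg_re, one_re]
    ring
  · simp only [om, conj_im, sub_im, neg_im, one_im]
    ring

/-- The Gaussian integers, as a subring of `ℂ`. -/
private noncomputable def gauss : Subring ℂ where
  carrier := {z | ∃ a b : ℤ, z = a + b * I}
  mul_mem' := by
    rintro _ _ ⟨a, b, rfl⟩ ⟨c, d, rfl⟩
    refine ⟨a * c - b * d, a * d + b * c, ?_⟩
    push_cast
    ring_nf
    rw [I_sq]
    ring
  one_mem' := ⟨1, 0, by simp⟩
  add_mem' := by
    rintro _ _ ⟨a, b, rfl⟩ ⟨c, d, rfl⟩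
    exact ⟨a + c, b + d, by push_cast; ring⟩
  zero_mem' := ⟨0, 0, by simp⟩
  neg_mem' := by
    rintro _ ⟨a, b, rfl⟩
    exact ⟨-a, -b, by push_cast; ring⟩

/-- The Eisenstein integers, as a subring of `ℂ`. -/
private noncomputable def eis : Subring ℂ where
  carrier := {z | ∃ a b : ℤ, z = a + b * om}
  mul_mem' := by
    rintro _ _ ⟨a, b, rfl⟩ ⟨c, d, rfl⟩
    refine ⟨a * c - b * d, a * d + b * c - b * d, ?_⟩
    push_cast
    have := om_sq
    linear_combination (b : ℂ) * d * this
  one_mem' := ⟨1, 0, by simp⟩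
  add_mem' := by
    rintro _ _ ⟨a, b, rfl⟩ ⟨c, d, rfl⟩
    exact ⟨a + c, b + d, by push_cast; ring⟩
  zero_mem' := ⟨0, 0, by simp⟩
  neg_mem' := by
    rintro _ ⟨a, b, rfl⟩
    exact ⟨-a, -b, by push_cast; ring⟩

private lemma gauss_conj (z : ℂ) (hz : z ∈ gauss) : (starRingEnd ℂ) z ∈ gauss := by
  obtain ⟨a, b, rfl⟩ := hz
  exact ⟨a, -b, by simp [map_add, map_mul]⟩

private lemma eis_conj (z : ℂ) (hz : z ∈ eis) : (starRingEnd ℂ) z ∈ eis := by
  obtain ⟨a, b, rfl⟩ := hz
  refine ⟨a - b, -b, ?_⟩
  simp only [map_add, map_mul, map_intCast, om_conj]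
  push_cast
  ring

private lemma gauss_norm (z : ℂ) (hz : z ∈ gauss) : ‖z‖ ^ 2 ≠ 6 := by
  obtain ⟨a, b, rfl⟩ := hz
  intro h
  rw [← normSq_eq_norm_sq] at h
  have h2 : a ^ 2 + b ^ 2 = 6 := by
    have : normSq ((a : ℂ) + b * I) = (a : ℝ) ^ 2 + (b : ℝ) ^ 2 := by
      simp [normSq_apply]
      ring
    rw [this] at h
    exact_mod_cast h
  have ha : a ≤ 2 := by nlinarith [sq_nonneg b]
  have ha' : -2 ≤ a := by nlinarith [sq_nonneg b]
  have hb : b ≤ 2 := by nlinarith [sq_nonneg a]
  have hb' : -2 ≤ b := by nlinarith [sq_nonneg a]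
  interval_cases a <;> interval_cases b <;> omega

private lemma eis_norm (z : ℂ) (hz : z ∈ eis) : ‖z‖ ^ 2 ≠ 6 := by
  obtain ⟨a, b, rfl⟩ := hz
  intro h
  rw [← normSq_eq_norm_sq] at h
  have h2 : a ^ 2 - a * b + b ^ 2 = 6 := by
    have : normSq ((a : ℂ) + b * om) = (a : ℝ) ^ 2 - a * b + (b : ℝ) ^ 2 := by
      simp only [normSq_apply, add_re, add_im, mul_re, mul_im, intCast_re, intCast_im, om]
      nlinarith [s3]
    rw [this] at h
    exact_mod_cast h
  have ha : a ≤ 2 := by nlinarith [sq_nonneg (a - 2 * b), sq_nonneg b]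
  have ha' : -2 ≤ a := by nlinarith [sq_nonneg (a - 2 * b), sq_nonneg b]
  have hb : b ≤ 2 := by nlinarith [sq_nonneg (b - 2 * a), sq_nonneg a]
  have hb' : -2 ≤ b := by nlinarith [sq_nonneg (b - 2 * a), sq_nonneg a]
  interval_cases a <;> interval_cases b <;> omega

/-- Fourth roots of unity are Gaussian integers. -/
private lemma root4 (z : ℂ) (hz : z ^ 4 = 1) : z ∈ gauss := by
  have h : (z - 1) * ((z + 1) * ((z - I) * (z + I))) = 0 := by
    have e : (z - 1) * ((z + 1) * ((z - I) * (z + I))) = z ^ 4 - 1 + (-(z ^ 2 - 1)) * (I ^ 2 + 1) := by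
      ring
    rw [e, hz, I_sq]
    ring
  rcases mul_eq_zero.mp h with h | h
  · exact ⟨1, 0, by push_cast; linear_combination h⟩
  rcases mul_eq_zero.mp h with h | h
  · exact ⟨-1, 0, by push_cast; linear_combination h⟩
  rcases mul_eq_zero.mp h with h | h
  · exact ⟨0, 1, by push_cast; linear_combination h⟩
  · exact ⟨0, -1, by push_cast; linear_combination h⟩

/-- Sixth roots of unity are Eisenstein integers. -/
private lemma root6 (z : ℂ) (hz : z ^ 6 = 1) : z ∈ eis := by
  have hom := om_sq
  have homc : om ^ 2 = -1 - om := by rw [sq]; exact hom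
  have h : (z - 1) * ((z + 1) * ((z - om) * ((z + 1 + om) * ((z + om) * (z - 1 - om))))) = 0 := by
    have e1 : (z - om) * (z + 1 + om) = z ^ 2 + z + 1 := by linear_combination -homc
    have e2 : (z + om) * (z - 1 - om) = z ^ 2 - z + 1 := by linear_combination -homc
    have : (z - 1) * ((z + 1) * ((z - om) * ((z + 1 + om) * ((z + om) * (z - 1 - om)))))
        = (z - 1) * (z + 1) * (((z - om) * (z + 1 + om)) * ((z + om) * (z - 1 - om))) := by ring
    rw [this, e1, e2]
    linear_combination hz
  rcases mul_eq_zero.mp h with h | h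
  · exact ⟨1, 0, by push_cast; linear_combination h⟩
  rcases mul_eq_zero.mp h with h | h
  · exact ⟨-1, 0, by push_cast; linear_combination h⟩
  rcases mul_eq_zero.mp h with h | h
  · exact ⟨0, 1, by push_cast; linear_combination h⟩
  rcases mul_eq_zero.mp h with h | h
  · exact ⟨-1, -1, by push_cast; linear_combination h⟩
  rcases mul_eq_zero.mp h with h | h
  · exact ⟨0, -1, by push_cast; linear_combination h⟩
  · exact ⟨1, 1, by push_cast; linear_combination h⟩

/-- The entries of `Hᴴ K` stay in a conjugation-stable subring. -/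
private lemma entry_mem (S : Subring ℂ) (hS : ∀ z ∈ S, (starRingEnd ℂ) z ∈ S)
    (H K : Matrix (Fin 6) (Fin 6) ℂ) (hH : ∀ i j, H i j ∈ S) (hK : ∀ i j, K i j ∈ S) (i j : Fin 6) :
    (Hᴴ * K) i j ∈ S := by
  rw [Matrix.mul_apply]
  apply Subring.sum_mem
  intro k _
  apply S.mul_mem
  · rw [conjTranspose_apply]
    exact hS _ (hH k i)
  · exact hK k j

/-- **Two Butson matrices of the same small order are never unbiased in dimension six.**
If all entries of the `6 × 6` matrices `H`, `K` are fourth roots of unity, or all are sixth roots of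
unity, then no entry of `Hᴴ K` has squared modulus `6`. -/
theorem result (H K : Matrix (Fin 6) (Fin 6) ℂ) :
    ((∀ i j, H i j ^ 4 = 1) → (∀ i j, K i j ^ 4 = 1) → ∀ i j, ‖(Hᴴ * K) i j‖ ^ 2 ≠ 6) ∧
    ((∀ i j, H i j ^ 6 = 1) → (∀ i j, K i j ^ 6 = 1) → ∀ i j, ‖(Hᴴ * K) i j‖ ^ 2 ≠ 6) := by
  constructor
  · intro hH hK i j
    exact gauss_norm _ (entry_mem gauss gauss_conj H K (fun a b => root4 _ (hH a b))
      (fun a b => root4 _ (hK a b)) i j)
  · intro hH hK i j
    exact eis_norm _ (entry_mem eis eis_conj H K (fun a b => root6 _ (hH a b))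
      (fun a b => root6 _ (hK a b)) i j)

end Vale.Agent.Results.P355.SameRootOrder
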